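import Vale.Agent.P238.Main

/-!
The distortion of embedding edit distance on binary strings into `l_1` is at least a constant
times `(log n) ^ 2 / log (log n)`.
-/

namespace Vale.Agent.Results.P238.EditDistanceLogSquared

open Vale.Agent.P238

theorem result :
    (∃ c : ℝ, 0 < c ∧ ∃ N : ℕ, ∀ n : ℕ, N ≤ n →
      ∀ (Φ : (Fin n → Bool) → lp (fun _ : ℕ => ℝ) 1) (A B : ℝ),
        (∀ x y, ‖Φ x - Φ y‖ ≤ A * editDist (List.ofFn x) (List.ofFn y)) →
        (∀ x y, (editDist (List.ofFn x) (List.ofFn y) : ℝ) ≤ B * ‖Φ x - Φ y‖) →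
        c * Real.log n ^ 2 / Real.log (Real.log n) ≤ A * B) ∧
    (∀ K : ℝ, ∃ N : ℕ, ∀ n : ℕ, N ≤ n →
      ∀ (Φ : (Fin n → Bool) → lp (fun _ : ℕ => ℝ) 1) (A B : ℝ),
        (∀ x y, ‖Φ x - Φ y‖ ≤ A * editDist (List.ofFn x) (List.ofFn y)) →
        (∀ x y, (editDist (List.ofFn x) (List.ofFn y) : ℝ) ≤ B * ‖Φ x - Φ y‖) →
        K * Real.log n < A * B) := by
  obtain ⟨c, hc, N, hN⟩ := edit_distortion_lower_bound
  refine ⟨⟨c, hc, N, hN⟩, fun K => ?_⟩
  have h1 : Filter.Tendsto (fun n : ℕ => Real.log (n : ℝ)) Filter.atTop Filter.atTop :=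
    Real.tendsto_log_atTop.comp tendsto_natCast_atTop_atTop
  have h2 := (Real.isLittleO_log_id_atTop.comp_tendsto h1).bound
    (show 0 < c / (|K| + 1) by positivity)
  obtain ⟨N', hN'⟩ := Filter.eventually_atTop.1 (h2.and (h1.eventually_ge_atTop 3))
  refine ⟨max N N', fun n hn Φ A B hA hB => ?_⟩
  obtain ⟨h3, h4⟩ := hN' n (le_trans (le_max_right _ _) hn)
  refine lt_of_lt_of_le ?_ (hN n (le_trans (le_max_left _ _) hn) Φ A B hA hB)
  simp only [Function.comp_apply, id_eq, Real.norm_eq_abs] at h3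
  have hL : 0 < Real.log (Real.log n) := Real.log_pos (by linarith)
  rw [abs_of_pos hL, abs_of_pos (show 0 < Real.log n by linarith), div_mul_eq_mul_div,
    le_div_iff₀ (by positivity)] at h3
  rw [lt_div_iff₀ hL]
  nlinarith [le_abs_self K, mul_pos (show 0 < Real.log n by linarith) hL]

end Vale.Agent.Results.P238.EditDistanceLogSquared
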